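import Vale.Agent.Lib.P047.Biased

/-!
P047 Mono, unit V5 (Deriv): for a monotone `φ` every biased level-one coefficient is `≥ 0`.

ROUTE.  `bc t φ {i} = ∑ x, wt t x * φ x * (sg (x i) - t)` (unfold `bc`, `pm`, `Finset.prod_singleton`;
see the definitions in the Biased file).  Symmetrise with `sum_flip i`:
`2 * bc = ∑ x, (wt t x * φ x * (sg (x i) - t) + wt t (flip i x) * φ (flip i x) * (- sg (x i) - t))`.
With `wt_flip` (or: `wt t x = ((1 + t sg (x i)) / 2) * R`, `wt t (flip i x) = ((1 - t sg (x i)) / 2) * R`,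
`R = ∏ j ∈ univ.erase i, (1 + t sg (x j)) / 2 ≥ 0`) and `sg (x i) = ±1` the summand is
`R * (1 - t^2) / 2 * sg (x i) * (φ x - φ (flip i x)) ≥ 0` by monotonicity.
-/

namespace Vale.Agent.Lib.P047.Mono

open Finset Vale.Agent.Lib.P047.Biased

variable {ι : Type} [Fintype ι] [DecidableEq ι]

theorem bc_single_nonneg (φ : (ι → ℤˣ) → ℝ)
    (hmono : ∀ x y : ι → ℤˣ, (∀ i, (x i : ℤ) ≤ (y i : ℤ)) → φ x ≤ φ y)
    {t : ℝ} (ht : |t| ≤ 1) (i : ι) : 0 ≤ bc t φ {i} := by
  have ht' := abs_le.mp ht
  have ht2 : 0 ≤ 1 - t ^ 2 := by nlinarith [ht'.1, ht'.2]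
  have h1 : bc t φ {i} = ∑ x, wt t x * φ x * (sg (x i) - t) := by
    unfold bc pm
    simp only [Finset.prod_singleton]
  have h2 : bc t φ {i} = ∑ x, wt t (flip i x) * φ (flip i x) * (sg (flip i x i) - t) := by
    rw [h1]
    exact (sum_flip i (fun x => wt t x * φ x * (sg (x i) - t))).symm
  have h3 : 2 * bc t φ {i} = ∑ x, (wt t x * φ x * (sg (x i) - t)
      + wt t (flip i x) * φ (flip i x) * (sg (flip i x i) - t)) := by
    rw [Finset.sum_add_distrib, ← h1, ← h2]; ring
  have h4 : 0 ≤ 2 * bc t φ {i} := by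
    rw [h3]
    refine Finset.sum_nonneg fun x _ => ?_
    set R : ℝ := ∏ j ∈ univ.erase i, ((1 + t * sg (x j)) / 2) with hR
    have hR0 : 0 ≤ R := by
      refine Finset.prod_nonneg fun j _ => ?_
      rcases sg_cases (x j) with hs | hs <;> rw [hs] <;> linarith [ht'.1, ht'.2]
    have hw1 : wt t x = (1 + t * sg (x i)) / 2 * R := by
      unfold wt
      rw [← Finset.mul_prod_erase univ _ (Finset.mem_univ i)]
    have hw2 : wt t (flip i x) = (1 - t * sg (x i)) / 2 * R := by
      unfold wt
      rw [← Finset.mul_prod_erase univ _ (Finset.mem_univ i)]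
      have : ∏ j ∈ univ.erase i, ((1 + t * sg (flip i x j)) / 2) = R := by
        refine Finset.prod_congr rfl fun j hj => ?_
        rw [flip_ne i x (Finset.ne_of_mem_erase hj)]
      rw [this, flip_same, sg_neg]
      ring
    rw [hw1, hw2, flip_same, sg_neg]
    rcases Int.units_eq_one_or (x i) with hs | hs
    · have hle : φ (flip i x) ≤ φ x := by
        apply hmono
        intro j
        by_cases hj : j = i
        · subst hj; rw [flip_same, hs]; simp
        · rw [flip_ne i x hj]
      have hsg : sg (x i) = 1 := by rw [hs]; simp [sg]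
      rw [hsg]
      have : (1 + t * 1) / 2 * R * φ x * (1 - t) + (1 - t * 1) / 2 * R * φ (flip i x) * (-1 - t)
          = R * (1 - t ^ 2) / 2 * (φ x - φ (flip i x)) := by ring
      rw [this]
      exact mul_nonneg (by positivity) (by linarith)
    · have hle : φ x ≤ φ (flip i x) := by
        apply hmono
        intro j
        by_cases hj : j = i
        · subst hj; rw [flip_same, hs]; simp
        · rw [flip_ne i x hj]
      have hsg : sg (x i) = -1 := by rw [hs]; simp [sg]
      rw [hsg]
      have : (1 + t * -1) / 2 * R * φ x * (-1 - t) + (1 - t * -1) / 2 * R * φ (flip i x) * (- -1 - t)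
          = R * (1 - t ^ 2) / 2 * (φ (flip i x) - φ x) := by ring
      rw [this]
      exact mul_nonneg (by positivity) (by linarith)
  linarith

end Vale.Agent.Lib.P047.Mono
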