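import Vale.Agent.Lib.P047.Mono.PolyLemma
import Vale.Agent.Lib.P047.Mono.Deriv

/-!
P047 Mono, Main: a monotone Boolean function of degree `≤ d` has `∑ i, f^({i}) ≤ (d+3)/π`.
-/

namespace Vale.Agent.Lib.P047.Mono

open Finset Vale.Agent.Lib.P047.Biased

theorem monotone_bound (n d : ℕ) (f : (Fin n → ℤˣ) → ℤˣ)
    (hmono : ∀ x y : Fin n → ℤˣ, (∀ i, (x i : ℤ) ≤ (y i : ℤ)) → (f x : ℤ) ≤ (f y : ℤ))
    (hdeg : ∀ S : Finset (Fin n), d < S.card →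
      (∑ x, ((f x : ℤ) : ℝ) * ∏ i ∈ S, ((x i : ℤ) : ℝ)) / 2 ^ n = 0) :
    ∑ i, (∑ x, ((f x : ℤ) : ℝ) * ((x i : ℤ) : ℝ)) / 2 ^ n ≤ (d + 3) / Real.pi := by
  have hφ : ∀ x, (fun x => ((f x : ℤ) : ℝ)) x = 1 ∨ (fun x => ((f x : ℤ) : ℝ)) x = -1 := by
    intro x
    rcases Int.units_eq_one_or (f x) with h | h <;> simp [h]
  have hfc : ∀ S : Finset (Fin n), fcoef (fun x => ((f x : ℤ) : ℝ)) S
      = (∑ x, ((f x : ℤ) : ℝ) * ∏ i ∈ S, ((x i : ℤ) : ℝ)) / 2 ^ n := by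
    intro S
    unfold fcoef sg
    rw [Fintype.card_fin]
  have h1 := poly_lemma d (meanPoly (fun x => ((f x : ℤ) : ℝ)))
    (meanPoly_natDegree _ d (by
      intro S hS
      rw [hfc]
      exact hdeg S hS))
    (fun t ht => abs_meanPoly_le ht _ hφ)
    (fun t ht => by
      rw [deriv_meanPoly]
      refine Finset.sum_nonneg fun i _ => bc_single_nonneg _ ?_ ht i
      intro x y hxy
      exact_mod_cast hmono x y hxy)
  rw [meanPoly_coeff_one] at h1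
  simp only [hfc, Finset.prod_singleton] at h1
  exact h1

end Vale.Agent.Lib.P047.Mono
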