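import Vale.Agent.Lib.P047.Mono.Roots

/-!
P047 Mono, unit V3 (SinSum): `∑_{j < 2M} |sin (2π j / (2M))| = 2 cot (π / (2M)) ≤ 2 (2M) / π`.

ROUTE.
`sum_sin_mul`: telescoping, `2 sin (x/2) sin (j x) = cos ((j - 1/2) x) - cos ((j + 1/2) x)` with
`x = π / M`; the sum is `cos (x/2) - cos (π - x/2) = 2 cos (x/2)`.  (Induction on the number of terms
for a general `x`: `2 sin (x/2) ∑_{j<m} sin (j x) = cos (x/2) - cos ((m - 1/2) x)`.)
`sum_sin_le`: `y = π / (2M) ∈ (0, π/2]`; `cos y ≤ sin y / y`, i.e. `y cos y ≤ sin y`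
(`Real.lt_tan` for `y < π/2`, or `Real.cos_le_... `; for `M = 1` `cos (π/2) = 0`).
`sum_abs_sin_le`: split `range (2M)` in `j < M` and `j = M + i`; `sin (π (M+i) / M) = - sin (π i / M)`;
`sin (π i / M) ≥ 0` for `i ≤ M`.
-/

namespace Vale.Agent.Lib.P047.Mono

open Finset

private theorem tele (x : ℝ) (m : ℕ) :
    2 * Real.sin (x / 2) * ∑ j ∈ range m, Real.sin (j * x)
      = Real.cos (x / 2) - Real.cos (((m : ℝ) - 1 / 2) * x) := by
  induction m with
  | zero =>
    have h : (((0 : ℕ) : ℝ) - 1 / 2) * x = -(x / 2) := by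
      push_cast
      ring
    rw [h, Real.cos_neg]
    simp
  | succ k ih =>
    rw [Finset.sum_range_succ, mul_add, ih]
    have h1 : ((k : ℝ) - 1 / 2) * x = k * x - x / 2 := by ring
    have h2 : (((k + 1 : ℕ) : ℝ) - 1 / 2) * x = k * x + x / 2 := by
      push_cast
      ring
    rw [h1, h2, Real.cos_sub, Real.cos_add]
    ring

theorem sum_sin_mul (M : ℕ) (hM : 1 ≤ M) :
    Real.sin (Real.pi / (2 * M)) * ∑ j ∈ range M, Real.sin (Real.pi * j / M)
      = Real.cos (Real.pi / (2 * M)) := by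
  have hM0 : (M : ℝ) ≠ 0 := Nat.cast_ne_zero.mpr (by omega)
  have h := tele (Real.pi / M) M
  have h1 : Real.pi / M / 2 = Real.pi / (2 * M) := by
    field_simp
  have h2 : ((M : ℝ) - 1 / 2) * (Real.pi / M) = Real.pi - Real.pi / (2 * M) := by
    field_simp
  have h3 : ∀ j : ℕ, (j : ℝ) * (Real.pi / M) = Real.pi * j / M := by
    intro j
    ring
  simp only [h1, h2, h3, Real.cos_pi_sub] at h
  linarith

theorem sum_sin_le (M : ℕ) (hM : 1 ≤ M) :
    ∑ j ∈ range M, Real.sin (Real.pi * j / M) ≤ 2 * M / Real.pi := by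
  have hM1 : (1 : ℝ) ≤ M := by exact_mod_cast hM
  have hMpos : (0 : ℝ) < M := by linarith
  have hpi := Real.pi_pos
  set y : ℝ := Real.pi / (2 * M) with hy
  have hypos : 0 < y := by positivity
  have hyle : y ≤ Real.pi / 2 := by
    rw [hy]
    apply div_le_div_of_nonneg_left hpi.le (by norm_num) (by linarith)
  have hyc : y * Real.cos y ≤ Real.sin y := by
    rcases lt_or_eq_of_le hyle with h | h
    · have h1 := Real.lt_tan hypos h
      have hc : 0 < Real.cos y := Real.cos_pos_of_mem_Ioo ⟨by linarith, h⟩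
      rw [Real.tan_eq_sin_div_cos, lt_div_iff₀ hc] at h1
      exact h1.le
    · rw [h]
      simp
  have hs : 0 < Real.sin y := Real.sin_pos_of_pos_of_lt_pi hypos (by linarith)
  have key : Real.sin y * ∑ j ∈ range M, Real.sin (Real.pi * j / M)
      ≤ Real.sin y * (2 * M / Real.pi) := by
    rw [sum_sin_mul M hM]
    have h1 : 2 * (M : ℝ) / Real.pi = 1 / y := by
      rw [hy]
      field_simp
    rw [h1, mul_one_div, le_div_iff₀ hypos]
    linarith
  exact le_of_mul_le_mul_left key hs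

theorem sum_abs_sin_le (M : ℕ) (hM : 1 ≤ M) :
    ∑ j ∈ range (2 * M), |Real.sin (th (2 * M) j)| ≤ 2 * (2 * M) / Real.pi := by
  have hM1 : (1 : ℝ) ≤ M := by exact_mod_cast hM
  have hMpos : (0 : ℝ) < M := by linarith
  have hM0 : (M : ℝ) ≠ 0 := ne_of_gt hMpos
  have hth : ∀ j : ℕ, th (2 * M) j = Real.pi * j / M := by
    intro j
    unfold th
    push_cast
    field_simp
  have hnn : ∀ j ∈ range M, 0 ≤ Real.sin (Real.pi * j / M) := by
    intro j hj
    have hj' : (j : ℝ) ≤ M := by exact_mod_cast (Finset.mem_range.mp hj).le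
    apply Real.sin_nonneg_of_nonneg_of_le_pi
    · positivity
    · rw [div_le_iff₀ hMpos]
      nlinarith [Real.pi_pos]
  simp only [hth]
  rw [two_mul M, Finset.sum_range_add]
  have h1 : ∑ j ∈ range M, |Real.sin (Real.pi * j / M)|
      = ∑ j ∈ range M, Real.sin (Real.pi * j / M) := by
    apply Finset.sum_congr rfl
    intro j hj
    rw [abs_of_nonneg (hnn j hj)]
  have h2 : ∑ j ∈ range M, |Real.sin (Real.pi * ((M + j : ℕ) : ℝ) / M)|
      = ∑ j ∈ range M, Real.sin (Real.pi * j / M) := by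
    apply Finset.sum_congr rfl
    intro j hj
    have h3 : Real.pi * ((M + j : ℕ) : ℝ) / M = Real.pi * j / M + Real.pi := by
      push_cast
      field_simp
      ring
    rw [h3, Real.sin_add_pi, abs_neg, abs_of_nonneg (hnn j hj)]
  rw [h1, h2]
  have h4 := sum_sin_le M hM
  have e : 2 * (2 * (M : ℝ)) / Real.pi = 2 * M / Real.pi + 2 * M / Real.pi := by ring
  linarith

end Vale.Agent.Lib.P047.Mono
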