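import Vale.Agent.Lib.P047.Mono.Quad
import Vale.Agent.Lib.P047.Mono.SinSum

/-!
P047 Mono, unit V4 (PolyLemma): a polynomial of degree `≤ d`, bounded by 1 and nondecreasing on
`[-1,1]`, has `P'(0) ≤ (d+3)/π`.

ROUTE.  `M = (d + 3) / 2` (natural division), `N = 2 M`, so `d + 1 < N ≤ d + 3`, `1 ≤ M`.
By `quad`, `∑_j P'(s_j) c_j^2 = ∑_j P(s_j) s_j ≤ ∑_j |s_j| ≤ 2 N / π` (`sum_abs_sin_le`).
All terms `P'(s_j) c_j^2 = (1 - s_j^2) P'(s_j)` are `≥ 0` by `hm`; the terms `j = 0` (`th = 0`) and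
`j = M` (`th = π`) are both `P'(0)`; `0 ≠ M`, both in `range N`
(`Finset.sum_le_sum_of_subset_of_nonneg` with `{0, M} ⊆ range N`, or `Finset.add_sum_erase` twice).
`P'(0) = P.coeff 1`: `Polynomial.coeff_zero_eq_eval_zero`, `Polynomial.coeff_derivative`.
-/

namespace Vale.Agent.Lib.P047.Mono

open Finset Polynomial

theorem two_mul_le_sum (M : ℕ) (hM : 1 ≤ M) (P : ℝ[X])
    (hm : ∀ t : ℝ, |t| ≤ 1 → 0 ≤ (1 - t ^ 2) * (derivative P).eval t) :
    2 * P.coeff 1 ≤ ∑ j ∈ range (2 * M),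
      (derivative P).eval (Real.sin (th (2 * M) j)) * Real.cos (th (2 * M) j) ^ 2 := by
  have hnn : ∀ j ∈ range (2 * M),
      0 ≤ (derivative P).eval (Real.sin (th (2 * M) j)) * Real.cos (th (2 * M) j) ^ 2 := by
    intro j _
    have h := hm (Real.sin (th (2 * M) j)) (Real.abs_sin_le_one _)
    have e : Real.cos (th (2 * M) j) ^ 2 = 1 - Real.sin (th (2 * M) j) ^ 2 := by
      have := Real.sin_sq_add_cos_sq (th (2 * M) j)
      linarith
    rw [e, mul_comm]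
    exact h
  have hd0 : (derivative P).eval 0 = P.coeff 1 := by
    rw [← Polynomial.coeff_zero_eq_eval_zero, Polynomial.coeff_derivative]
    simp
  have h0 : th (2 * M) 0 = 0 := by simp [th]
  have hMpos : (0 : ℝ) < M := by exact_mod_cast hM
  have hMth : th (2 * M) M = Real.pi := by
    unfold th
    push_cast
    field_simp
  have hsub : ({0, M} : Finset ℕ) ⊆ range (2 * M) := by
    intro x hx
    simp only [mem_insert, mem_singleton] at hx
    rw [mem_range]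
    rcases hx with rfl | rfl <;> omega
  have h1 := Finset.sum_le_sum_of_subset_of_nonneg hsub (fun j hj _ => hnn j hj)
  rw [Finset.sum_pair (by omega : (0 : ℕ) ≠ M)] at h1
  rw [h0, hMth] at h1
  simp only [Real.sin_zero, Real.cos_zero, Real.sin_pi, Real.cos_pi, hd0] at h1
  norm_num at h1
  linarith

theorem poly_lemma (d : ℕ) (P : ℝ[X]) (hP : P.natDegree ≤ d)
    (hb : ∀ t : ℝ, |t| ≤ 1 → |P.eval t| ≤ 1)
    (hm : ∀ t : ℝ, |t| ≤ 1 → 0 ≤ (1 - t ^ 2) * (derivative P).eval t) :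
    P.coeff 1 ≤ (d + 3) / Real.pi := by
  obtain ⟨M, hM⟩ : ∃ M, M = (d + 3) / 2 := ⟨_, rfl⟩
  have hM1 : 1 ≤ M := by omega
  have hN1 : d + 1 < 2 * M := by omega
  have hN2 : 2 * M ≤ d + 3 := by omega
  have hq := quad (2 * M) d hN1 P hP
  rw [Finset.sum_sub_distrib, sub_eq_zero] at hq
  have h2 := two_mul_le_sum M hM1 P hm
  have h3 : ∑ j ∈ range (2 * M), P.eval (Real.sin (th (2 * M) j)) * Real.sin (th (2 * M) j)
      ≤ ∑ j ∈ range (2 * M), |Real.sin (th (2 * M) j)| := by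
    apply Finset.sum_le_sum
    intro j _
    have hb1 := hb (Real.sin (th (2 * M) j)) (Real.abs_sin_le_one _)
    calc P.eval (Real.sin (th (2 * M) j)) * Real.sin (th (2 * M) j)
        ≤ |P.eval (Real.sin (th (2 * M) j)) * Real.sin (th (2 * M) j)| := le_abs_self _
      _ = |P.eval (Real.sin (th (2 * M) j))| * |Real.sin (th (2 * M) j)| := abs_mul _ _
      _ ≤ 1 * |Real.sin (th (2 * M) j)| := mul_le_mul_of_nonneg_right hb1 (abs_nonneg _)
      _ = |Real.sin (th (2 * M) j)| := one_mul _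
  have h4 := sum_abs_sin_le M hM1
  have h5 : 2 * P.coeff 1 ≤ 2 * (2 * (M : ℝ)) / Real.pi := by linarith
  have h6 : (2 * (M : ℝ)) ≤ (d : ℝ) + 3 := by exact_mod_cast hN2
  have h7 : 2 * (M : ℝ) / Real.pi ≤ ((d : ℝ) + 3) / Real.pi :=
    div_le_div_of_nonneg_right h6 Real.pi_pos.le
  have h8 : 2 * (2 * (M : ℝ)) / Real.pi = 2 * (2 * (M : ℝ) / Real.pi) := by ring
  linarith

end Vale.Agent.Lib.P047.Mono
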