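import Vale.Agent.Lib.P047.Mono.Roots

/-!
P047 Mono, unit V2 (Quad): the quadrature identity
`∑_j (P'(sin th_j) cos² th_j - P(sin th_j) sin th_j) = 0` for `deg P + 1 < N`.

ROUTE.
`quad_monomial`: half the sum of `D_zero N a 1` and `D_zero N a (-1)`: with `z = exp (I th)`,
`(z + z⁻¹) / 2 = cos th`, `I * (z - z⁻¹) / 2 = - sin th`; so the complex sum
`∑_j (a s^(a-1) c^2 - s^(a+1)) = 0`; then `Complex.ofReal_sin`, `Complex.ofReal_cos`, `exact_mod_cast`.
`quad`: `P = ∑ a ∈ range (d+1), C (P.coeff a) * X ^ a` (`Polynomial.as_sum_range'`), or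
`Polynomial.eval_eq_sum_range'` and `Polynomial.derivative_eval`; swap the sums and use
`quad_monomial` for every `a ≤ d`.
-/

namespace Vale.Agent.Lib.P047.Mono

open Finset Polynomial

private lemma quad_pt (a : ℕ) (θ : ℂ) :
    (a : ℂ) * Complex.sin θ ^ (a - 1) * Complex.cos θ ^ 2 - Complex.sin θ ^ (a + 1)
      = (1 / 2) * ((((derivative (X ^ a : ℂ[X])).eval (Complex.sin θ) * Complex.cos θ
        + Complex.I * ((1 : ℤ) : ℂ) * (X ^ a : ℂ[X]).eval (Complex.sin θ))
          * Complex.exp (Complex.I * θ) ^ (1 : ℤ))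
        + (((derivative (X ^ a : ℂ[X])).eval (Complex.sin θ) * Complex.cos θ
        + Complex.I * ((-1 : ℤ) : ℂ) * (X ^ a : ℂ[X]).eval (Complex.sin θ))
          * Complex.exp (Complex.I * θ) ^ (-1 : ℤ))) := by
  have hz : Complex.exp (Complex.I * θ) ^ (-1 : ℤ) = Complex.exp (-(Complex.I * θ)) := by
    rw [zpow_neg_one, Complex.exp_neg]
  have hd : (derivative (X ^ a : ℂ[X])).eval (Complex.sin θ) = (a : ℂ) * Complex.sin θ ^ (a - 1) := by
    simp [derivative_X_pow]
  have he : (X ^ a : ℂ[X]).eval (Complex.sin θ) = Complex.sin θ ^ a := by simp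
  rw [hz, zpow_one, hd, he]
  have hc : Complex.exp (Complex.I * θ) + Complex.exp (-(Complex.I * θ)) = 2 * Complex.cos θ := by
    rw [Complex.cos]
    have e1 : θ * Complex.I = Complex.I * θ := mul_comm _ _
    have e2 : -θ * Complex.I = -(Complex.I * θ) := by ring
    rw [e1, e2]; ring
  have hs : Complex.exp (Complex.I * θ) - Complex.exp (-(Complex.I * θ))
      = 2 * Complex.sin θ * Complex.I := by
    rw [Complex.sin]
    have e1 : θ * Complex.I = Complex.I * θ := mul_comm _ _
    have e2 : -θ * Complex.I = -(Complex.I * θ) := by ring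
    rw [e1, e2]
    have hI : Complex.I * Complex.I = -1 := Complex.I_mul_I
    linear_combination (-(Complex.exp (-(Complex.I * θ)) - Complex.exp (Complex.I * θ))) * hI
  have hI : Complex.I ^ 2 = -1 := Complex.I_sq
  push_cast
  linear_combination (-(1 / 2) * ((a : ℂ) * Complex.sin θ ^ (a - 1)) * Complex.cos θ) * hc
    + (-(1 / 2) * Complex.I * Complex.sin θ ^ a) * hs - Complex.sin θ ^ (a + 1) * hI

theorem quad_monomial (N a : ℕ) (hN : a + 1 < N) :
    ∑ j ∈ range N, ((a : ℝ) * Real.sin (th N j) ^ (a - 1) * Real.cos (th N j) ^ 2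
      - Real.sin (th N j) ^ (a + 1)) = 0 := by
  have h1 := D_zero N a 1 (by simp; omega)
  have h2 := D_zero N a (-1) (by simp; omega)
  have hsum : ∑ j ∈ range N, ((a : ℂ) * Complex.sin (th N j : ℂ) ^ (a - 1)
      * Complex.cos (th N j : ℂ) ^ 2 - Complex.sin (th N j : ℂ) ^ (a + 1)) = 0 := by
    rw [sum_congr rfl (fun j _ => quad_pt a (th N j : ℂ)), ← mul_sum, sum_add_distrib, h1, h2]
    simp
  have hcast : ((∑ j ∈ range N, ((a : ℝ) * Real.sin (th N j) ^ (a - 1) * Real.cos (th N j) ^ 2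
      - Real.sin (th N j) ^ (a + 1)) : ℝ) : ℂ) = 0 := by
    push_cast
    exact hsum
  exact_mod_cast hcast

theorem quad (N d : ℕ) (hN : d + 1 < N) (P : ℝ[X]) (hP : P.natDegree ≤ d) :
    ∑ j ∈ range N, ((derivative P).eval (Real.sin (th N j)) * Real.cos (th N j) ^ 2
      - P.eval (Real.sin (th N j)) * Real.sin (th N j)) = 0 := by
  have hlt : P.natDegree < d + 1 := Nat.lt_succ_of_le hP
  have hpt : ∀ j ∈ range N, ((derivative P).eval (Real.sin (th N j)) * Real.cos (th N j) ^ 2
      - P.eval (Real.sin (th N j)) * Real.sin (th N j))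
      = ∑ a ∈ range (d + 1), P.coeff a * ((a : ℝ) * Real.sin (th N j) ^ (a - 1)
          * Real.cos (th N j) ^ 2 - Real.sin (th N j) ^ (a + 1)) := by
    intro j _
    rw [Polynomial.eval_eq_sum_range' hlt, Polynomial.derivative_eval,
      Polynomial.sum_over_range' _ (by intro n; simp) _ hlt, sum_mul, sum_mul, ← sum_sub_distrib]
    apply sum_congr rfl
    intro a _
    ring
  rw [sum_congr rfl hpt, sum_comm]
  apply sum_eq_zero
  intro a ha
  rw [← mul_sum, quad_monomial N a (by have := mem_range.1 ha; omega), mul_zero]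

end Vale.Agent.Lib.P047.Mono
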