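import Mathlib

/-!
P047 Mono, unit V1 (Roots): sums over the `N`-th roots of unity.
`th N j = 2 π j / N`, `z_j = exp (I th_j)`.

ROUTE.
`sum_zpow`: `z_j ^ k = (exp (I * 2π k / N)) ^ j`, a geometric sum with ratio `w = exp (2π I k / N)`,
`w ^ N = 1` and `w ≠ 1` because `0 < |k| < N` (`Complex.exp_eq_one_iff`); `geom_sum_eq` or
`mul_geom_sum`.
`D_zero`: induction on `a`, for all `k`.  Base `a = 0`: the summand is `I * k * z_j ^ k`; `k = 0`
trivial, otherwise `sum_zpow`.  Step: with `s = sin th_j = (z - z⁻¹) / (2 I)`,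
`c = cos th_j = (z + z⁻¹) / 2`, `Q = X ^ a`, `(X * Q)' = Q + X * Q'`, pointwise
`((Q(s) + s Q'(s)) c + I k s Q(s)) z^k
   = (1 / (2 I)) * ((Q'(s) c + I (k+1) Q(s)) z^(k+1) - (Q'(s) c + I (k-1) Q(s)) z^(k-1))`,
(`zpow_add₀`, `zpow_sub₀`, `Complex.exp_ne_zero`), then the induction hypothesis at `k + 1`, `k - 1`.
-/

namespace Vale.Agent.Lib.P047.Mono

open Finset Polynomial

/-- the nodes -/
noncomputable def th (N j : ℕ) : ℝ := 2 * Real.pi * j / N

theorem sum_zpow (N : ℕ) (k : ℤ) (hk : k ≠ 0) (hkN : |k| < N) :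
    ∑ j ∈ range N, Complex.exp (Complex.I * (th N j : ℂ)) ^ k = 0 := by
  have hNZ : (0 : ℤ) < N := lt_of_le_of_lt (abs_nonneg k) hkN
  have hN : 0 < N := by exact_mod_cast hNZ
  have hNC : (N : ℂ) ≠ 0 := by exact_mod_cast hN.ne'
  have h1 : ∀ j : ℕ, Complex.exp (Complex.I * (th N j : ℂ)) ^ k =
      Complex.exp (2 * Real.pi * Complex.I * k / N) ^ j := by
    intro j
    rw [← Complex.exp_int_mul, ← Complex.exp_nat_mul]
    congr 1
    unfold th
    push_cast
    ring
  rw [Finset.sum_congr rfl (fun j _ => h1 j)]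
  have hw1 : Complex.exp (2 * Real.pi * Complex.I * k / N) ≠ 1 := by
    intro h
    rw [Complex.exp_eq_one_iff] at h
    obtain ⟨n, hn⟩ := h
    have hpi : (2 * Real.pi * Complex.I : ℂ) ≠ 0 := Complex.two_pi_I_ne_zero
    have h2 : (k : ℂ) = n * N := by
      rw [div_eq_iff hNC] at hn
      have h3 : (2 * Real.pi * Complex.I : ℂ) * k = (2 * Real.pi * Complex.I) * (n * N) := by
        linear_combination hn
      exact mul_left_cancel₀ hpi h3
    have h3 : k = n * N := by exact_mod_cast h2
    have h4 : |k| = |n| * N := by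
      rw [h3, abs_mul]
      simp
    rw [h4] at hkN
    have h5 : |n| < 1 := by
      by_contra h6
      push Not at h6
      nlinarith
    have h6 : n = 0 := Int.abs_lt_one_iff.1 h5
    rw [h6] at h3
    simp at h3
    exact hk h3
  have hwN : Complex.exp (2 * Real.pi * Complex.I * k / N) ^ N = 1 := by
    rw [← Complex.exp_nat_mul]
    have h7 : (N : ℂ) * (2 * Real.pi * Complex.I * k / N) = k * (2 * Real.pi * Complex.I) := by
      field_simp
    rw [h7, Complex.exp_int_mul_two_pi_mul_I]
  rw [geom_sum_eq hw1, hwN, sub_self, zero_div]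

theorem D_zero (N : ℕ) (a : ℕ) : ∀ k : ℤ, (a : ℤ) + |k| < N →
    ∑ j ∈ range N,
      ((derivative (X ^ a : ℂ[X])).eval (Complex.sin (th N j : ℂ)) * Complex.cos (th N j : ℂ)
        + Complex.I * (k : ℂ) * (X ^ a : ℂ[X]).eval (Complex.sin (th N j : ℂ)))
      * Complex.exp (Complex.I * (th N j : ℂ)) ^ k = 0 := by
  induction a with
  | zero =>
    intro k hk
    simp only [pow_zero, derivative_one, eval_zero, zero_mul, zero_add, eval_one, mul_one]
    rw [← Finset.mul_sum]
    rcases eq_or_ne k 0 with rfl | hk0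
    · simp
    · rw [sum_zpow N k hk0 (by simpa using hk), mul_zero]
  | succ a ih =>
    intro k hk
    push_cast at hk
    have h1 := ih (k + 1) (by
      have h3 := abs_add_le k 1
      rw [abs_one] at h3
      linarith)
    have h2 := ih (k - 1) (by
      have h3 := abs_sub k 1
      rw [abs_one] at h3
      linarith)
    have key : ∀ j ∈ range N,
        ((derivative (X ^ (a + 1) : ℂ[X])).eval (Complex.sin (th N j : ℂ)) *
            Complex.cos (th N j : ℂ)
          + Complex.I * (k : ℂ) * (X ^ (a + 1) : ℂ[X]).eval (Complex.sin (th N j : ℂ)))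
        * Complex.exp (Complex.I * (th N j : ℂ)) ^ k =
        (1 / (2 * Complex.I)) *
        (((derivative (X ^ a : ℂ[X])).eval (Complex.sin (th N j : ℂ)) * Complex.cos (th N j : ℂ)
          + Complex.I * ((k + 1 : ℤ) : ℂ) * (X ^ a : ℂ[X]).eval (Complex.sin (th N j : ℂ)))
        * Complex.exp (Complex.I * (th N j : ℂ)) ^ (k + 1) -
        ((derivative (X ^ a : ℂ[X])).eval (Complex.sin (th N j : ℂ)) * Complex.cos (th N j : ℂ)
          + Complex.I * ((k - 1 : ℤ) : ℂ) * (X ^ a : ℂ[X]).eval (Complex.sin (th N j : ℂ)))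
        * Complex.exp (Complex.I * (th N j : ℂ)) ^ (k - 1)) := by
      intro j _
      have hz : Complex.exp (Complex.I * (th N j : ℂ)) ≠ 0 := Complex.exp_ne_zero _
      have hc : Complex.cos (th N j : ℂ) = (Complex.exp (Complex.I * (th N j : ℂ)) +
          (Complex.exp (Complex.I * (th N j : ℂ)))⁻¹) / 2 := by
        rw [Complex.cos, ← Complex.exp_neg, mul_comm Complex.I, neg_mul]
      have hs : Complex.sin (th N j : ℂ) = (Complex.exp (Complex.I * (th N j : ℂ)) -
          (Complex.exp (Complex.I * (th N j : ℂ)))⁻¹) / (2 * Complex.I) := by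
        rw [Complex.sin, ← Complex.exp_neg, mul_comm Complex.I, neg_mul]
        have hI : Complex.I ≠ 0 := Complex.I_ne_zero
        field_simp
        rw [Complex.I_sq]
        ring
      rw [pow_succ, derivative_mul, derivative_X, eval_add, eval_mul, eval_mul, eval_mul, eval_X,
        eval_one, zpow_add_one₀ hz, zpow_sub_one₀ hz]
      generalize (derivative (X ^ a : ℂ[X])).eval (Complex.sin (th N j : ℂ)) = q'
      generalize (X ^ a : ℂ[X]).eval (Complex.sin (th N j : ℂ)) = q
      rw [hs, hc]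
      generalize Complex.exp (Complex.I * (th N j : ℂ)) ^ k = zk
      generalize Complex.exp (Complex.I * (th N j : ℂ)) = z at hz ⊢
      have hI : Complex.I ≠ 0 := Complex.I_ne_zero
      push_cast
      field_simp
      ring
    rw [Finset.sum_congr rfl key, ← Finset.mul_sum, Finset.sum_sub_distrib, h1, h2]
    simp

end Vale.Agent.Lib.P047.Mono
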