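import Mathlib

/-!
P047 Mono, unit W1 (SmallEnd): nonnegativity of `P'` at the end points and at interior points.

ROUTE.  For `|t| < 1`, `0 < 1 - t^2`, so `0 ≤ P'(t)` (`deriv_nonneg_interior`,
`nonneg_of_mul_nonneg_right` or `pos_of_mul...`, or by contradiction with `nlinarith`).
At `t = 1`: `P'` is continuous (`Polynomial.continuous`), `P' ≥ 0` on `Ioo (-1) 1`, and `1` is in the
closure: `ge_of_tendsto` along `nhdsWithin 1 (Set.Iio 1)` (`Ioo_mem_nhdsLT`), or by contradiction: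
if `P'(1) < 0` then `P' < 0` on a neighbourhood.  Same at `-1`.
-/

namespace Vale.Agent.Lib.P047.Mono

open Polynomial

theorem deriv_nonneg_interior (P : ℝ[X])
    (hm : ∀ t : ℝ, |t| ≤ 1 → 0 ≤ (1 - t ^ 2) * (derivative P).eval t)
    (t : ℝ) (ht : t ^ 2 < 1) : 0 ≤ (derivative P).eval t := by
  have h1 : |t| ≤ 1 := by
    rw [← sq_le_one_iff_abs_le_one]; exact ht.le
  have h2 := hm t h1
  have h3 : 0 < 1 - t ^ 2 := by linarith
  exact nonneg_of_mul_nonneg_right h2 h3

theorem deriv_nonneg_one (P : ℝ[X])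
    (hm : ∀ t : ℝ, |t| ≤ 1 → 0 ≤ (1 - t ^ 2) * (derivative P).eval t) :
    0 ≤ (derivative P).eval 1 := by
  have hc : Filter.Tendsto (fun t : ℝ => (derivative P).eval t) (nhdsWithin 1 (Set.Iio 1))
      (nhds ((derivative P).eval 1)) :=
    ((derivative P).continuous.tendsto 1).mono_left nhdsWithin_le_nhds
  refine ge_of_tendsto hc ?_
  have hmem : Set.Ioo (-1 : ℝ) 1 ∈ nhdsWithin (1 : ℝ) (Set.Iio 1) := Ioo_mem_nhdsLT (by norm_num)
  filter_upwards [hmem] with t ht
  exact deriv_nonneg_interior P hm t (by nlinarith [ht.1, ht.2])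

theorem deriv_nonneg_neg_one (P : ℝ[X])
    (hm : ∀ t : ℝ, |t| ≤ 1 → 0 ≤ (1 - t ^ 2) * (derivative P).eval t) :
    0 ≤ (derivative P).eval (-1) := by
  have hc : Filter.Tendsto (fun t : ℝ => (derivative P).eval t) (nhdsWithin (-1) (Set.Ioi (-1)))
      (nhds ((derivative P).eval (-1))) :=
    ((derivative P).continuous.tendsto (-1)).mono_left nhdsWithin_le_nhds
  refine ge_of_tendsto hc ?_
  have hmem : Set.Ioo (-1 : ℝ) 1 ∈ nhdsWithin (-1 : ℝ) (Set.Ioi (-1)) := Ioo_mem_nhdsGT (by norm_num)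
  filter_upwards [hmem] with t ht
  exact deriv_nonneg_interior P hm t (by nlinarith [ht.1, ht.2])

end Vale.Agent.Lib.P047.Mono
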