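import Mathlib

/-!
P047 Mono, unit W3 (SmallGauss): the three point Gauss rule for `P'`, exact for `deg P ≤ 6`.

ROUTE.  `P.eval x = ∑ i ∈ range 7, P.coeff i * x ^ i` (`Polynomial.eval_eq_sum_range'`),
`(derivative P).eval x = ∑ i ∈ range 6, (derivative P).coeff i * x ^ i` with
`Polynomial.coeff_derivative` and `Polynomial.natDegree_derivative_le`; `Finset.sum_range_succ`,
`simp`; then `a ^ 4 = 9 / 25` from `ha`, odd powers of `a` cancel; `linear_combination`.
-/

namespace Vale.Agent.Lib.P047.Mono

open Polynomial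

theorem gauss3 (P : ℝ[X]) (hP : P.natDegree ≤ 6) (a : ℝ) (ha : a ^ 2 = 3 / 5) :
    P.eval 1 - P.eval (-1) = 8 / 9 * (derivative P).eval 0
      + 5 / 9 * ((derivative P).eval a + (derivative P).eval (-a)) := by
  have hD : (derivative P).natDegree < 6 := by
    have := Polynomial.natDegree_derivative_le P
    omega
  have e1 : ∀ x : ℝ, P.eval x = ∑ i ∈ Finset.range 7, P.coeff i * x ^ i := fun x =>
    Polynomial.eval_eq_sum_range' (by omega) x
  have e2 : ∀ x : ℝ, (derivative P).eval x
      = ∑ i ∈ Finset.range 6, (derivative P).coeff i * x ^ i := fun x =>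
    Polynomial.eval_eq_sum_range' hD x
  rw [e1, e1, e2, e2, e2]
  simp only [Finset.sum_range_succ, Finset.sum_range_zero, Polynomial.coeff_derivative]
  have h4 : a ^ 4 = 9 / 25 := by
    have : a ^ 4 = (a ^ 2) ^ 2 := by ring
    rw [this, ha]; norm_num
  push_cast
  ring_nf
  rw [h4, ha]
  ring

end Vale.Agent.Lib.P047.Mono
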