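import Mathlib

/-!
P047 Mono, unit W4 (SmallLobatto): the five point Lobatto rule for `P'`, exact for `deg P ≤ 8`.

ROUTE.  `P.eval x = ∑ i ∈ range 9, P.coeff i * x ^ i` (`Polynomial.eval_eq_sum_range'`),
`(derivative P).eval x = ∑ i ∈ range 8, (derivative P).coeff i * x ^ i` with
`Polynomial.coeff_derivative` and `Polynomial.natDegree_derivative_le`; `Finset.sum_range_succ`,
`simp`; then `a ^ 4 = 9 / 49`, `a ^ 6 = 27 / 343` from `ha`, odd powers of `a` cancel;
`linear_combination`.
-/

namespace Vale.Agent.Lib.P047.Mono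

open Polynomial

theorem lobatto5 (P : ℝ[X]) (hP : P.natDegree ≤ 8) (a : ℝ) (ha : a ^ 2 = 3 / 7) :
    P.eval 1 - P.eval (-1) = 32 / 45 * (derivative P).eval 0
      + 49 / 90 * ((derivative P).eval a + (derivative P).eval (-a))
      + 1 / 10 * ((derivative P).eval 1 + (derivative P).eval (-1)) := by
  have hP' : P.natDegree < 9 := by omega
  have hD : (derivative P).natDegree < 8 := by
    have := natDegree_derivative_le P
    omega
  have e1 : ∀ x : ℝ, P.eval x = ∑ i ∈ Finset.range 9, P.coeff i * x ^ i :=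
    fun x => eval_eq_sum_range' hP' x
  have e2 : ∀ x : ℝ, (derivative P).eval x
      = ∑ i ∈ Finset.range 8, (derivative P).coeff i * x ^ i :=
    fun x => eval_eq_sum_range' hD x
  rw [e1, e1, e2, e2, e2, e2, e2]
  simp only [Finset.sum_range_succ, Finset.sum_range_zero, coeff_derivative]
  push_cast
  linear_combination (-(49 / 45 : ℝ)) * (3 * P.coeff 3 + 5 * P.coeff 5 * (a ^ 2 + 3 / 7)
    + 7 * P.coeff 7 * (a ^ 4 + 3 / 7 * a ^ 2 + 9 / 49)) * ha

end Vale.Agent.Lib.P047.Mono
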