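import Mathlib

/-!
P047 Mono, unit W2 (SmallSimpson): Simpson's rule for `P'`, exact for `deg P ≤ 4`.

ROUTE.  `P.eval x = ∑ i ∈ range 5, P.coeff i * x ^ i` (`Polynomial.eval_eq_sum_range'`),
`(derivative P).eval x = ∑ i ∈ range 4, (derivative P).coeff i * x ^ i` with
`Polynomial.coeff_derivative` and `Polynomial.natDegree_derivative_le`; `Finset.sum_range_succ`,
`simp`, `ring`.
-/

namespace Vale.Agent.Lib.P047.Mono

open Polynomial

theorem simpson (P : ℝ[X]) (hP : P.natDegree ≤ 4) :
    P.eval 1 - P.eval (-1) = 4 / 3 * (derivative P).eval 0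
      + 1 / 3 * ((derivative P).eval 1 + (derivative P).eval (-1)) := by
  have h1 : ∀ x : ℝ, P.eval x = ∑ i ∈ Finset.range 5, P.coeff i * x ^ i := fun x =>
    Polynomial.eval_eq_sum_range' (by omega) x
  have hd : (derivative P).natDegree < 4 + 1 := by
    have := Polynomial.natDegree_derivative_le P
    omega
  have h2 : ∀ x : ℝ, (derivative P).eval x = ∑ i ∈ Finset.range (4 + 1), (derivative P).coeff i * x ^ i :=
    fun x => Polynomial.eval_eq_sum_range' hd x
  have h5 : P.coeff 5 = 0 := Polynomial.coeff_eq_zero_of_natDegree_lt (by omega)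
  simp only [h1, h2, Finset.sum_range_succ, Finset.sum_range_zero, Polynomial.coeff_derivative, h5]
  push_cast
  ring

end Vale.Agent.Lib.P047.Mono
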