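import Vale.Agent.Lib.P047.Mono.SmallEnd
import Vale.Agent.Lib.P047.Mono.SmallSimpson
import Vale.Agent.Lib.P047.Mono.SmallGauss
import Vale.Agent.Lib.P047.Mono.SmallLobatto
import Vale.Agent.Lib.P047.Mono.Deriv

/-!
P047 Mono, SmallMain: monotone Boolean functions of degree `≤ 4`, `≤ 6`, `≤ 8` have level-one sum
`≤ 3/2`, `≤ 9/4`, `≤ 45/16`.
-/

namespace Vale.Agent.Lib.P047.Mono

open Finset Polynomial Vale.Agent.Lib.P047.Biased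

lemma coeff_one_eq (P : ℝ[X]) : (derivative P).eval 0 = P.coeff 1 := by
  rw [← Polynomial.coeff_zero_eq_eval_zero, Polynomial.coeff_derivative]
  simp

lemma diff_le_two (P : ℝ[X]) (hb : ∀ t : ℝ, |t| ≤ 1 → |P.eval t| ≤ 1) :
    P.eval 1 - P.eval (-1) ≤ 2 := by
  have h1 := abs_le.mp (hb 1 (by simp))
  have h2 := abs_le.mp (hb (-1) (by simp))
  linarith [h1.2, h2.1]

theorem small_poly (P : ℝ[X]) (hb : ∀ t : ℝ, |t| ≤ 1 → |P.eval t| ≤ 1)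
    (hm : ∀ t : ℝ, |t| ≤ 1 → 0 ≤ (1 - t ^ 2) * (derivative P).eval t) :
    (P.natDegree ≤ 4 → P.coeff 1 ≤ 3 / 2) ∧ (P.natDegree ≤ 6 → P.coeff 1 ≤ 9 / 4) ∧
      (P.natDegree ≤ 8 → P.coeff 1 ≤ 45 / 16) := by
  have h2 := diff_le_two P hb
  have e1 := deriv_nonneg_one P hm
  have e2 := deriv_nonneg_neg_one P hm
  refine ⟨fun hP => ?_, fun hP => ?_, fun hP => ?_⟩
  · have h := simpson P hP
    rw [coeff_one_eq] at h
    linarith
  · have ha : (Real.sqrt (3 / 5)) ^ 2 = 3 / 5 := Real.sq_sqrt (by norm_num)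
    have h := gauss3 P hP _ ha
    rw [coeff_one_eq] at h
    have i1 := deriv_nonneg_interior P hm (Real.sqrt (3 / 5)) (by rw [ha]; norm_num)
    have i2 := deriv_nonneg_interior P hm (-Real.sqrt (3 / 5)) (by rw [neg_sq, ha]; norm_num)
    linarith
  · have ha : (Real.sqrt (3 / 7)) ^ 2 = 3 / 7 := Real.sq_sqrt (by norm_num)
    have h := lobatto5 P hP _ ha
    rw [coeff_one_eq] at h
    have i1 := deriv_nonneg_interior P hm (Real.sqrt (3 / 7)) (by rw [ha]; norm_num)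
    have i2 := deriv_nonneg_interior P hm (-Real.sqrt (3 / 7)) (by rw [neg_sq, ha]; norm_num)
    linarith

theorem monotone_small (n : ℕ) (f : (Fin n → ℤˣ) → ℤˣ)
    (hmono : ∀ x y : Fin n → ℤˣ, (∀ i, (x i : ℤ) ≤ (y i : ℤ)) → (f x : ℤ) ≤ (f y : ℤ)) :
    ((∀ S : Finset (Fin n), 4 < S.card →
        (∑ x, ((f x : ℤ) : ℝ) * ∏ i ∈ S, ((x i : ℤ) : ℝ)) / 2 ^ n = 0) →
      ∑ i, (∑ x, ((f x : ℤ) : ℝ) * ((x i : ℤ) : ℝ)) / 2 ^ n ≤ 3 / 2) ∧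
    ((∀ S : Finset (Fin n), 6 < S.card →
        (∑ x, ((f x : ℤ) : ℝ) * ∏ i ∈ S, ((x i : ℤ) : ℝ)) / 2 ^ n = 0) →
      ∑ i, (∑ x, ((f x : ℤ) : ℝ) * ((x i : ℤ) : ℝ)) / 2 ^ n ≤ 9 / 4) ∧
    ((∀ S : Finset (Fin n), 8 < S.card →
        (∑ x, ((f x : ℤ) : ℝ) * ∏ i ∈ S, ((x i : ℤ) : ℝ)) / 2 ^ n = 0) →
      ∑ i, (∑ x, ((f x : ℤ) : ℝ) * ((x i : ℤ) : ℝ)) / 2 ^ n ≤ 45 / 16) := by
  have hφ : ∀ x, (fun x => ((f x : ℤ) : ℝ)) x = 1 ∨ (fun x => ((f x : ℤ) : ℝ)) x = -1 := by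
    intro x
    rcases Int.units_eq_one_or (f x) with h | h <;> simp [h]
  have hfc : ∀ S : Finset (Fin n), fcoef (fun x => ((f x : ℤ) : ℝ)) S
      = (∑ x, ((f x : ℤ) : ℝ) * ∏ i ∈ S, ((x i : ℤ) : ℝ)) / 2 ^ n := by
    intro S
    unfold fcoef sg
    rw [Fintype.card_fin]
  have h1 := small_poly (meanPoly (fun x => ((f x : ℤ) : ℝ)))
    (fun t ht => abs_meanPoly_le ht _ hφ)
    (fun t ht => by
      rw [deriv_meanPoly]
      refine Finset.sum_nonneg fun i _ => bc_single_nonneg _ ?_ ht i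
      intro x y hxy
      exact_mod_cast hmono x y hxy)
  rw [meanPoly_coeff_one] at h1
  simp only [hfc, Finset.prod_singleton] at h1
  have hd : ∀ d : ℕ, (∀ S : Finset (Fin n), d < S.card →
      (∑ x, ((f x : ℤ) : ℝ) * ∏ i ∈ S, ((x i : ℤ) : ℝ)) / 2 ^ n = 0) →
      (meanPoly (fun x => ((f x : ℤ) : ℝ))).natDegree ≤ d := by
    intro d hdeg
    refine meanPoly_natDegree _ d ?_
    intro S hS
    rw [hfc]
    exact hdeg S hS
  exact ⟨fun h => h1.1 (hd 4 h), fun h => h1.2.1 (hd 6 h), fun h => h1.2.2 (hd 8 h)⟩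

end Vale.Agent.Lib.P047.Mono
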